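import Crest.Agent.X262.Hb64.Rep
import Crest.Agent.X262.Gwb59.Ax
import Crest.Agent.X262.Bl53.Defs

/-!
# Row 262, (BL) (helper77): the support axiom of the invariants

* `supj` : `Bl53.SUPJ V.gw` for the evaluation `Hb64.inst C`.
-/

set_option autoImplicit false

noncomputable section

namespace Crest.Agent.X262.Supj77

open Crest.Agent.X277 Crest.Agent.X277.Lef Crest.Agent.X277.AN.G1 Crest.Agent.X277.BD
  Crest.Agent.X277.BD.Br Crest.Agent.X262.Coh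
open Crest.Agent.X262.Gwb
open Crest.Agent.X262.Vb (Pnt NZ TreePts)
open Crest.Agent.X262.Qn (tree_nz tree_on)

/-- scaled coordinates of a point after a field extension -/
theorem isPt_of {Q Y : SV} {m : Pre Y} {μ : Hom Q Y} {L : Type} [Field L] [Algebra ℂ L]
    (α : Q.F →ₐ[ℂ] L) {z : Pnt m.io Q.F} {w : Pnt m.io L} {u : m.J → Y.F} {c : m.J → Q.F}
    {s : m.J → L} (hs : ∀ j, s j ≠ 0) (hw : ∀ j i, α (z j i) = s j * w j i)
    (h : ∀ j i, m.y j i / u j ∈ μ.p.O ∧ z j i = c j * μ.p.π (m.y j i / u j)) :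
    Bl53.IsPt m.T μ α w := fun j =>
  ⟨u j, (s j)⁻¹ * α (c j), fun i => (h j i).1, fun i => by
    rw [mul_assoc, ← map_mul, eq_inv_mul_iff_mul_eq₀ (hs j), ← hw, (h j i).2]; rfl⟩

/-- **the support axiom** -/
theorem supj (C : Coh.Th) [Hb64.Ok C] (V : Vir C (Hb64.th C)) (hV : V.I = Hb64.inst C) :
    Bl53.SUPJ V.gw := fun {Y} m d x y x' y' l h => by
  classical
  rcases eq_or_ne l 0 with rfl | hl
  · simp only [Vir.op_one, mul_zero]
  rw [V.itg_op' m d hl, V.itg_op' m d hl]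
  refine V.gw_two m d (fun E _ _ _ z z' hz => ?_) l
  obtain ⟨a, ha⟩ := Hb64.exists_rep C (m := m.toPre) (z := z) (tree_nz hz 0)
    (Pre.on_iff.1 (tree_on hz 0))
  obtain ⟨a', ha'⟩ := Hb64.exists_rep C (m := m.toPre) (z := z') (tree_nz hz 1)
    (Pre.on_iff.1 (tree_on hz 1))
  obtain ⟨P, hP⟩ := Unf.exists_on ({a, a'} : Finset (BD ℂ E))
  obtain ⟨ν, ⟨u, c, -, h1⟩, h2⟩ := ha P (hP a (by simp))
  obtain ⟨μ, ⟨u', c', -, h3⟩, h4⟩ := ha' P (hP a' (by simp))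
  obtain ⟨L, _, _, _, α, t, p, s, h5, h6, h7, h8, h9⟩ := hz
  have h10 := h (sv P) μ ν ⟨L, _, _, ‹_›, α, t, p 1, p 0, h5, h6,
    fun u => Pre.on_iff.1 (h7 u), isPt_of α (h8 1) (h9 1) h3, isPt_of α (h8 0) (h9 0) h1⟩
  rw [hV, h2, h2, h4, h4]
  exact (map_mul (Hb64.ev C _) _ _).symm.trans
    ((congrArg _ ((mul_comm _ _).trans (h10.trans (mul_comm _ _)))).trans (map_mul _ _ _))

end Crest.Agent.X262.Supj77
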